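import Vale.Agent.P075.Analysis
import Vale.Agent.P075.Discrete
import Vale.Agent.P075.Finite
import Vale.Agent.P075.TraceProof

namespace Vale.Agent.Results.P075.DyadicTriangularBound

open Vale.Agent.P075

theorem result : DyadicBound ∧ FiniteSums :=
  ⟨dyadicBound_of_discrete (discreteBound TraceAux.traceFacts), finiteSums⟩

end Vale.Agent.Results.P075.DyadicTriangularBound
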